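import Vale.Agent.P181.TQ.Defs

set_option autoImplicit false
set_option linter.unusedSectionVars false

/-!
# Line TQ, [T4]: reduction to the power relation, both parities
-/

namespace Vale.Agent.P181.H481.TQ

open Vale.Agent.P181 Vale.Agent.P181.H280 Vale.Agent.P181.H73 Vale.Agent.P181.H270 Finset

section PermS

variable {A : Type*} [CommRing A] [Algebra ℂ A] {a : ℕ}

/-- The form `Q ↦ ∑_σ sign(σ)^κ F(P_(σ i) Q_i)`. -/
noncomputable def permS (κ : ℕ) (P : Fin a → A) (F : MultilinearMap ℂ (fun _ : Fin a => A) ℂ) :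
    MultilinearMap ℂ (fun _ : Fin a => A) ℂ :=
  ∑ σ : Equiv.Perm (Fin a), (((Equiv.Perm.sign σ : ℤ) : ℂ) ^ κ) • mulArg F (fun i => P (σ i))

lemma permS_apply (κ : ℕ) (P : Fin a → A) (F : MultilinearMap ℂ (fun _ : Fin a => A) ℂ)
    (Q : Fin a → A) : permS κ P F Q = ∑ σ : Equiv.Perm (Fin a),
      (((Equiv.Perm.sign σ : ℤ) : ℂ) ^ κ) * F (fun i => P (σ i) * Q i) := by
  simp only [permS, _root_.sum_apply, smul_apply, smul_eq_mul, mulArg_apply]

lemma permP_eq (κ : ℕ) (P Q : Fin a → A) (F : MultilinearMap ℂ (fun _ : Fin a => A) ℂ) :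
    permP κ Q F P = permS κ P F Q := by
  rw [permP_apply, permS_apply]

lemma altC_permS (κ : ℕ) (x P : Fin a → A) (F : MultilinearMap ℂ (fun _ : Fin a => A) ℂ) :
    altC x (permS κ P F) = permS κ P (altC x F) := by
  ext Q
  rw [altC_apply, permS_apply]
  simp only [permS_apply, altC_apply, Finset.mul_sum]
  rw [Finset.sum_comm]
  apply Finset.sum_congr rfl
  intro σ _
  apply Finset.sum_congr rfl
  intro τ _
  have h1 : (fun i => P (σ i) * (x (τ i) * Q i)) = fun i => x (τ i) * (P (σ i) * Q i) := by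
    funext i
    ring
  rw [h1]
  ring

lemma altC_iter_permS (κ : ℕ) (x P : Fin a → A) (n : ℕ) :
    ∀ F : MultilinearMap ℂ (fun _ : Fin a => A) ℂ,
      (altC x)^[n] (permS κ P F) = permS κ P ((altC x)^[n] F) := by
  induction n with
  | zero => intro F; rfl
  | succ n ih =>
    intro F
    rw [Function.iterate_succ_apply, Function.iterate_succ_apply, altC_permS, ih]

lemma sign_pow_sq (κ : ℕ) (σ : Equiv.Perm (Fin a)) :
    (((Equiv.Perm.sign σ : ℤ) : ℂ) ^ κ) * (((Equiv.Perm.sign σ : ℤ) : ℂ) ^ κ) = 1 := by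
  rw [← mul_pow, sign_sq, one_pow]

/-- Both signs cancel: the signed symmetrisation of a form of sign `κ` is symmetric. -/
lemma permS_symm (κ : ℕ) (P : Fin a → A) {F : MultilinearMap ℂ (fun _ : Fin a => A) ℂ}
    (hF : IsSgn κ F) : IsSymm (permS κ P F) := by
  intro ρ Q
  rw [permS_apply, permS_apply, ← Equiv.sum_comp (Equiv.mulRight ρ)]
  apply Finset.sum_congr rfl
  intro σ _
  simp only [Equiv.coe_mulRight]
  have h1 : F (fun i => P ((σ * ρ) i) * Q (ρ i)) =
      ((Equiv.Perm.sign ρ : ℤ) : ℂ) ^ κ * F (fun i => P (σ i) * Q i) :=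
    hF ρ (fun i => P (σ i) * Q i)
  rw [h1, map_mul, Units.val_mul, Int.cast_mul, mul_pow]
  calc ((Equiv.Perm.sign σ : ℤ) : ℂ) ^ κ * ((Equiv.Perm.sign ρ : ℤ) : ℂ) ^ κ *
        (((Equiv.Perm.sign ρ : ℤ) : ℂ) ^ κ * F (fun i => P (σ i) * Q i))
      = (((Equiv.Perm.sign ρ : ℤ) : ℂ) ^ κ * ((Equiv.Perm.sign ρ : ℤ) : ℂ) ^ κ) *
        (((Equiv.Perm.sign σ : ℤ) : ℂ) ^ κ * F (fun i => P (σ i) * Q i)) := by ring
    _ = _ := by rw [sign_pow_sq, one_mul]

end PermS

/-- **(T4)** Reduction to the power relation. -/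
theorem red : Vale.Agent.P181.TQ.RedStmt := by
  intro A _ _ a q j κ L F ha hq hs x hx hcol B hB hB2 Q hQ
  intro p p' hpp u hu v hv P hP
  set φ := (altC x)^[κ] F with hφ
  have hsgn : IsSgn κ φ := isSgn_iter hs x κ
  set P' := Function.update (Function.update P p (u ^ (j + 1))) p' (u * v) with hP'
  -- the relation for powers
  have hG : ∀ G ∈ L ^ a, permS κ P' φ (fun _ => G ^ q) = 0 := by
    intro G hG
    rw [permS_apply]
    apply Finset.sum_eq_zero
    intro σ _
    have h1 : φ (fun i => P' (σ i) * G ^ q) =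
        ((Equiv.Perm.sign σ : ℤ) : ℂ) ^ κ * φ (fun i => P' i * G ^ q) :=
      hsgn σ (fun i => P' i * G ^ q)
    have h2 := hcol G hG p p' hpp u hu v hv P hP
    rw [mulArg_apply] at h2
    have h3 : φ (fun i => P' i * G ^ q) = 0 := by
      rw [← h2]
      congr 1
      funext i
      rw [mul_comm]
    rw [h1, h3, mul_zero, mul_zero]
  have hps : IsSymm (permS κ P' φ) := permS_symm κ P' hsgn
  -- the contraction with `B0 q` columns
  have h0 : ∀ R : Fin a → A, (∀ i, R i ∈ L ^ (q * a - B0 q)) →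
      ((altC x)^[B0 q] (permS κ P' φ)) R = 0 := by
    intro R hR
    by_cases hq1 : q = 1
    · subst hq1
      have h1 : B0 1 = 0 := if_pos rfl
      rw [h1] at hR ⊢
      apply symm_polar (L ^ a) hps
      · intro G hG'
        have h2 := hG G hG'
        simpa only [pow_one] using h2
      · intro i
        have h2 := hR i
        rwa [one_mul, Nat.sub_zero] at h2
    · obtain ⟨r, rfl⟩ : ∃ r, q = r + 2 := ⟨q - 2, by omega⟩
      have h1 : B0 (r + 2) = 2 * r + 1 := by
        rw [B0, if_neg hq1]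
        omega
      rw [h1] at hR ⊢
      exact tall L ha x hx r (permS κ P' φ) hps hG R hR
  rw [permP_eq]
  obtain ⟨d, rfl⟩ : ∃ d, B = B0 q + d := ⟨B - B0 q, by omega⟩
  have h1 : (altC x)^[κ + (B0 q + d)] F = (altC x)^[d] ((altC x)^[B0 q] φ) := by
    rw [hφ, ← Function.iterate_add_apply, ← Function.iterate_add_apply]
    congr 1
    omega
  rw [h1, ← altC_iter_permS, ← altC_iter_permS]
  apply altC_iter_zero L x hx d (q * a - (B0 q + d)) _ _ Q hQ
  intro R hR
  apply h0 R
  intro i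
  have h2 : q * a - (B0 q + d) + d = q * a - B0 q := by omega
  rw [← h2]
  exact hR i

end Vale.Agent.P181.H481.TQ
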